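import Vale.Agent.P064.Fraction.Main

/-!
P064: the threshold for all but a share `δ` of the edges has no loss in `n`, the threshold for the
whole graph loses `(log e(H))^2`, and copies of large subgraphs have no loss.
-/

namespace Vale.Agent.Results.P064.LargeSubgraphs

open Vale.Agent.P064 Vale.Agent.P064.Fraction

theorem result :
    ∃ C : ℝ, ∀ (n v : ℕ) (H : SimpleGraph (Fin v)), v ≤ n → H.edgeSet.Nonempty →
      (∀ δ : ℝ, 0 < δ → pNear n δ H ≤ C * Real.log (4 + 1 / δ) ^ 2 * pE n H) ∧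
      pC n H ≤ C * Real.log (4 + (H.edgeSet.ncard : ℝ)) ^ 2 * pE n H ∧
      pFrac n H ≤ C * Real.log (4 + (H.edgeSet.ncard : ℝ)) * pE n H ∧
      (∀ q : ℝ, q ∈ Set.Icc (0 : ℝ) 1 → (∀ F : H.Subgraph, 1 / 2 ≤ expCopies n q F.coe) →
        ∀ F : H.Subgraph, (H.copyCount F.coe : ℝ) / 2 ≤ expCopies n (min 1
          (C * Real.log (4 + (H.edgeSet.ncard : ℝ) / F.edgeSet.ncard) * q)) F.coe) := by
  refine ⟨nearC, fun n v H hv hH => ⟨fun δ hδ => pNear_le hv H hH hδ, pC_le_log hv H hH, ?_, ?_⟩⟩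
  · refine (pFrac_le_log hv H hH).trans
      (mul_le_mul_of_nonneg_right (mul_le_mul_of_nonneg_right ?_ ?_) ?_)
    · rw [nearC]; linarith [spreadC_pos]
    · exact Real.log_nonneg (by linarith [(Nat.cast_nonneg _ : (0 : ℝ) ≤ (H.edgeSet.ncard : ℝ))])
    · exact le_csInf ⟨1, one_mem hv H⟩ fun p hp => hp.1.1
  · intro q hq hyp F
    have hR := rich_of_hyp hv H hq hyp
    have hq0 := q_pos hv H hH hq hR
    set L := Real.log (4 + (H.edgeSet.ncard : ℝ) / F.edgeSet.ncard) with hL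
    have hd : (0 : ℝ) ≤ (H.edgeSet.ncard : ℝ) / F.edgeSet.ncard := by positivity
    have hL0 : 0 ≤ L := Real.log_nonneg (by linarith)
    rw [show nearC * L * q = spreadC * (192 * L) * q by rw [nearC]; ring]
    refine frac_of_spread_at hv H (mul_nonneg (mul_nonneg spreadC_pos.le (by linarith)) hq0.le) F
      fun _ J hJ => spread_log_le hv H hq0 hR ?_
    rw [hJ, ← hL]
    linarith

end Vale.Agent.Results.P064.LargeSubgraphs
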