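import Vale.Agent.P064.Sym.Graphs

/-!
P064: the second Kahn–Kalai conjecture, `p_c = O(p_E log n)`, with `p̃_E = O(p_E)`.
-/

namespace Vale.Agent.Results.P064.SecondKahnKalai

open Vale.Agent.P064

theorem result :
    ∃ C : ℝ, ∀ (n v : ℕ) (H : SimpleGraph (Fin v)), 2 ≤ n → v ≤ n → H.edgeSet.Nonempty →
      pFrac n H ≤ C * pE n H ∧ pC n H ≤ C * pE n H * Real.log n :=
  ⟨Sym.kkC, fun _ _ H hn hv hH => Sym.second_kahn_kalai hn hv H hH⟩

end Vale.Agent.Results.P064.SecondKahnKalai
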